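import Vale.Agent.P210.R2.H53.RSpec
import Vale.Agent.P210.R2.H53.Base
import Mathlib.Analysis.Complex.ExponentialBounds

/-! [FINALR] from VOL, CALA, BG, CONTENT, COVC. -/

set_option linter.all false

open scoped Manifold ContDiff Topology Bundle ENNReal NNReal
open Set Metric Filter Bundle IsManifold MeasureTheory Manifold

set_option maxSynthPendingDepth 3

namespace Vale.Agent.P210.R2.H912

open Vale.Agent.P210.R2.H53 Vale.Agent.P210.R2.H53.Stmt

theorem finalr_of (hVOL : Stmt.VOL) (hCALA : Stmt.CALA) (hBG : Stmt.BG)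
    (hCONT : Stmt.CONTENT) (hCOVC : Stmt.COVC) : Stmt.FINALR := by
  classical
  intro n hn
  obtain ⟨ε, hε, C, hcov⟩ := hCOVC n (36 ^ n * 3) hn
  obtain ⟨R', hR', δ₀, hδ₀, hcont⟩ := hCONT n hn (ε / 8 ^ (n - 1)) (by positivity)
  set R : ℝ := R' / 8 with hR
  have hR0 : 0 < R := by positivity
  set δ : ℝ := min δ₀ (1 / (18 * R) ^ 2) with hδ
  have hδ1 : 0 < δ := lt_min hδ₀ (by positivity)
  have hδR : δ * (18 * R) ^ 2 ≤ 1 := by
    have h1 : δ ≤ 1 / (18 * R) ^ 2 := min_le_right _ _
    rwa [le_div_iff₀ (by positivity)] at h1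
  refine ⟨δ, hδ1, C * R, ?_⟩
  intro E _ _ _ M _ _ _ _ _ _ hdim hcomp hRic hScal
  haveI : ProperSpace M := properSpace_riemannian E M
  letI : MeasurableSpace E := borel E
  haveI : BorelSpace E := ⟨rfl⟩
  letI : MeasurableSpace M := borel M
  haveI : BorelSpace M := ⟨rfl⟩
  have h1 : 1 ≤ Module.finrank ℝ E := by omega
  obtain ⟨μ, hμ⟩ := hVOL E M h1
  obtain ⟨hfin, hpos, -⟩ := hCALA E M h1 μ hμ
  have hfinb : ∀ (x : M) (s : ℝ), μ (ball x s) ≠ ⊤ := fun x s =>
    ((measure_mono ball_subset_closedBall).trans_lt (hfin _ (isCompact_closedBall x s))).ne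
  refine hcov M R hR0 ?_ ?_
  · intro x s hs hsep
    have hb : ∀ y ∈ s, μ.real (ball x (9 * R)) ≤ 36 ^ n * 3 * μ.real (ball y (R / 2)) := by
      intro y hy
      have h2 := hBG n (by omega) E M h1 hdim μ δ hμ hδ1 hRic y (R / 2) (18 * R)
        (by positivity) (by linarith)
      have h3 : (18 * R / (R / 2)) ^ n = 36 ^ n := by
        congr 1
        field_simp
        norm_num
      rw [h3] at h2
      have h4 : Real.exp (δ * (18 * R) ^ 2) ≤ 3 :=
        (Real.exp_le_exp.2 hδR).trans Real.exp_one_lt_three.le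
      have h5 : ball x (9 * R) ⊆ ball y (18 * R) := by
        intro z hz
        rw [mem_ball] at hz ⊢
        have := hs y hy
        have := dist_triangle_right z y x
        linarith
      calc μ.real (ball x (9 * R)) ≤ μ.real (ball y (18 * R)) :=
            measureReal_mono h5 (hfinb _ _)
        _ ≤ _ := h2
        _ ≤ 36 ^ n * 3 * μ.real (ball y (R / 2)) := by
            gcongr
    have hdisj : (s : Set M).PairwiseDisjoint fun y => ball y (R / 2) := by
      intro y hy z hz hne
      refine ball_disjoint_ball ?_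
      have := hsep y hy z hz hne
      linarith
    have hsum : ∑ y ∈ s, μ.real (ball y (R / 2)) ≤ μ.real (ball x (9 * R)) := by
      rw [← measureReal_biUnion_finset hdisj (fun y _ => measurableSet_ball)
        (fun y _ => hfinb _ _)]
      refine measureReal_mono ?_ (hfinb _ _)
      intro z hz
      rw [mem_iUnion₂] at hz
      obtain ⟨y, hy, hz⟩ := hz
      rw [mem_ball] at hz ⊢
      have := hs y hy
      have := dist_triangle z y x
      linarith
    have hpos' : 0 < μ.real (ball x (9 * R)) :=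
      ENNReal.toReal_pos (hpos _ isOpen_ball ⟨x, mem_ball_self (by positivity)⟩).ne' (hfinb _ _)
    have h6 : (s.card : ℝ) * μ.real (ball x (9 * R)) ≤
        36 ^ n * 3 * μ.real (ball x (9 * R)) := by
      calc (s.card : ℝ) * μ.real (ball x (9 * R)) = ∑ y ∈ s, μ.real (ball x (9 * R)) := by
            rw [Finset.sum_const, nsmul_eq_mul]
        _ ≤ ∑ y ∈ s, 36 ^ n * 3 * μ.real (ball y (R / 2)) := Finset.sum_le_sum hb
        _ = 36 ^ n * 3 * ∑ y ∈ s, μ.real (ball y (R / 2)) := by rw [Finset.mul_sum]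
        _ ≤ _ := mul_le_mul_of_nonneg_left hsum (by positivity)
    have h7 := le_of_mul_le_mul_right h6 hpos'
    exact_mod_cast h7
  · intro x hx
    refine hcont E M h1 hdim μ δ hμ hδ1 hRic (min_le_left _ _) hScal x ?_
    have h8 : 8 * R = R' := by rw [hR]; ring
    have h9 : ε / 8 ^ (n - 1) * R' ^ (n - 1) = ε * R ^ (n - 1) := by
      rw [hR, div_pow]
      field_simp
    rw [h9, ← h8]
    exact hx

end Vale.Agent.P210.R2.H912
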